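import Mathlib

/-!
# P058: basic definitions (Euclidean Ramsey sets, transitive and subtransitive sets)
-/

namespace Vale.Agent.P058

/-- Euclidean space of dimension `n`. -/
abbrev E (n : ℕ) := EuclideanSpace ℝ (Fin n)

/-- A set `A` of points of `ℝ^d` is Ramsey: for every number `r ≥ 2` of colours there is a
dimension `D ≥ 1` such that every colouring of `ℝ^D` with `r` colours is constant on the image of
`A` under some map preserving all pairwise distances of `A`. -/
def IsRamsey {d : ℕ} (A : Set (E d)) : Prop :=
  ∀ r : ℕ, 2 ≤ r → ∃ D : ℕ, 1 ≤ D ∧ ∀ c : E D → Fin r,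
    ∃ f : E d → E D, (∀ a ∈ A, ∀ b ∈ A, dist (f a) (f b) = dist a b) ∧
      ∃ k : Fin r, ∀ a ∈ A, c (f a) = k

/-- A finite set `X` of points of `ℝ^n` is transitive: the isometries of `ℝ^n` mapping `X` onto
itself act transitively on `X`. -/
def IsTransitive {n : ℕ} (X : Set (E n)) : Prop :=
  X.Finite ∧ ∀ x ∈ X, ∀ y ∈ X, ∃ g : E n ≃ᵢ E n, g '' X = X ∧ g x = y

/-- `A` is subtransitive: it is congruent to a subset of a finite transitive set, i.e. some map
preserving all pairwise distances of `A` sends `A` into a finite transitive set. -/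
def IsSubtransitive {d : ℕ} (A : Set (E d)) : Prop :=
  ∃ (n : ℕ) (X : Set (E n)) (f : E d → E n), IsTransitive X ∧ (∀ a ∈ A, f a ∈ X) ∧
    ∀ a ∈ A, ∀ b ∈ A, dist (f a) (f b) = dist a b

/-- The right kite with parameter `u`, inscribed in the unit circle of the plane: the diameter
from `(-1,0)` to `(1,0)` together with the two endpoints of the chord perpendicular to it through
the point `(2u-1,0)`, which divides the diameter in the ratio `u : 1-u`. -/
noncomputable def kite (u : ℝ) : Set (E 2) :=
  {!₂[-1, 0], !₂[1, 0], !₂[2 * u - 1, 2 * Real.sqrt (u * (1 - u))],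
    !₂[2 * u - 1, -(2 * Real.sqrt (u * (1 - u)))]}

end Vale.Agent.P058
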