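import Vale.Agent.Lib.P058.PermOrbit

/-!
# P058: metric description of the right kite
-/

namespace Vale.Agent.P058

open scoped BigOperators

/-- The four points of the kite as a family. -/
noncomputable def kitePt (u : ℝ) : Fin 4 → E 2 :=
  ![!₂[-1, 0], !₂[1, 0], !₂[2 * u - 1, 2 * Real.sqrt (u * (1 - u))],
    !₂[2 * u - 1, -(2 * Real.sqrt (u * (1 - u)))]]

theorem range_kitePt (u : ℝ) : Set.range (kitePt u) = kite u := by
  ext x
  simp only [Set.mem_range, kite, Set.mem_insert_iff, Set.mem_singleton_iff, kitePt]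
  constructor
  · rintro ⟨i, rfl⟩
    fin_cases i <;> simp
  · rintro (h | h | h | h)
    · exact ⟨0, by simp [h]⟩
    · exact ⟨1, by simp [h]⟩
    · exact ⟨2, by simp [h]⟩
    · exact ⟨3, by simp [h]⟩

theorem dist_family_eq {α β : Type*} [PseudoMetricSpace α] [PseudoMetricSpace β]
    (q : Fin 4 → α) (p : Fin 4 → β)
    (h01 : dist (q 0) (q 1) = dist (p 0) (p 1)) (h02 : dist (q 0) (q 2) = dist (p 0) (p 2))
    (h03 : dist (q 0) (q 3) = dist (p 0) (p 3)) (h12 : dist (q 1) (q 2) = dist (p 1) (p 2))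
    (h13 : dist (q 1) (q 3) = dist (p 1) (p 3)) (h23 : dist (q 2) (q 3) = dist (p 2) (p 3)) :
    ∀ i j, dist (q i) (q j) = dist (p i) (p j) := by
  intro i j
  match i, j with
  | 0, 0 => simp
  | 0, 1 => exact h01
  | 0, 2 => exact h02
  | 0, 3 => exact h03
  | 1, 0 => rw [dist_comm (q 1), dist_comm (p 1)]; exact h01
  | 1, 1 => simp
  | 1, 2 => exact h12
  | 1, 3 => exact h13
  | 2, 0 => rw [dist_comm (q 2), dist_comm (p 2)]; exact h02
  | 2, 1 => rw [dist_comm (q 2), dist_comm (p 2)]; exact h12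
  | 2, 2 => simp
  | 2, 3 => exact h23
  | 3, 0 => rw [dist_comm (q 3), dist_comm (p 3)]; exact h03
  | 3, 1 => rw [dist_comm (q 3), dist_comm (p 3)]; exact h13
  | 3, 2 => rw [dist_comm (q 3), dist_comm (p 3)]; exact h23
  | 3, 3 => simp

theorem dist_sq_E2 (x y : E 2) : dist x y ^ 2 = (x 0 - y 0) ^ 2 + (x 1 - y 1) ^ 2 := by
  rw [EuclideanSpace.dist_eq, Real.sq_sqrt (by positivity)]
  simp [Real.dist_eq, sq_abs, Fin.sum_univ_two]

theorem kite_dists (u : ℝ) (h0 : 0 < u) (h1 : u < 1) :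
    dist (kitePt u 0) (kitePt u 1) ^ 2 = 4 ∧ dist (kitePt u 0) (kitePt u 2) ^ 2 = 4 * u ∧
    dist (kitePt u 0) (kitePt u 3) ^ 2 = 4 * u ∧ dist (kitePt u 1) (kitePt u 2) ^ 2 = 4 * (1 - u) ∧
    dist (kitePt u 1) (kitePt u 3) ^ 2 = 4 * (1 - u) ∧
    dist (kitePt u 2) (kitePt u 3) ^ 2 = 16 * (u * (1 - u)) := by
  have hs : Real.sqrt (u * (1 - u)) ^ 2 = u * (1 - u) :=
    Real.sq_sqrt (mul_nonneg h0.le (by linarith))
  unfold kitePt
  generalize Real.sqrt (u * (1 - u)) = s at hs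
  simp only [dist_sq_E2]
  simp only [Matrix.cons_val_zero, Matrix.cons_val_one, Matrix.cons_val]
  refine ⟨?_, ?_, ?_, ?_, ?_, ?_⟩
  · norm_num
  · linear_combination 4 * hs
  · linear_combination 4 * hs
  · linear_combination 4 * hs
  · linear_combination 4 * hs
  · linear_combination 16 * hs

theorem dist_eq_of_sq_eq {α β : Type*} [PseudoMetricSpace α] [PseudoMetricSpace β]
    {x y : α} {x' y' : β} {r : ℝ} (h : dist x y ^ 2 = r) (h' : dist x' y' ^ 2 = r) :
    dist x y = dist x' y' :=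
  (pow_left_inj₀ dist_nonneg dist_nonneg two_ne_zero).mp (h.trans h'.symm)

/-- real-number algebra behind `four_vectors_kite` -/
theorem kite_algebra (u ρ ab ad ac cb cd bd : ℝ) (h0 : 0 < u)
    (e1 : ab = ad) (ea : ab + ad = 2 * (1 - u) * ρ + 2 * u * ac)
    (eb : ρ + bd = 2 * (1 - u) * ab + 2 * u * cb)
    (ec : cb + cd = 2 * (1 - u) * ac + 2 * u * ρ)
    (ed : bd + ρ = 2 * (1 - u) * ad + 2 * u * cd)
    (e6 : ρ + ρ - 2 * ac = 4) :
    ρ + ρ - 2 * ab = 4 * u ∧ ρ + ρ - 2 * ad = 4 * u ∧ ρ + ρ - 2 * cb = 4 * (1 - u) ∧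
      ρ + ρ - 2 * cd = 4 * (1 - u) ∧ ρ + ρ - 2 * bd = 16 * (u * (1 - u)) := by
  have e7 : cb = cd := by
    have : (2 * u) * (cb - cd) = 0 := by rw [e1] at eb; linarith
    rcases mul_eq_zero.mp this with h | h
    · linarith
    · linarith
  have hab : ab = (1 - u) * ρ + u * ac := by linarith
  have hcb : cb = (1 - u) * ac + u * ρ := by linarith
  have hac : ac = ρ - 2 := by linarith
  subst hac
  have hbd : bd = 2 * (1 - u) * ab + 2 * u * cb - ρ := by linarith
  refine ⟨?_, ?_, ?_, ?_, ?_⟩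
  · rw [hab]; ring
  · rw [← e1, hab]; ring
  · rw [hcb]; ring
  · rw [← e7, hcb]; ring
  · rw [hbd, hab, hcb]; ring

/-- Four vectors of equal norm satisfying the affine relation of the kite, with the symmetry
`dist a b = dist a d` and `dist a c = 2`, form a congruent copy of the kite. -/
theorem four_vectors_kite {k : ℕ} (u : ℝ) (h0 : 0 < u) (h1 : u < 1) (a c b d : E k)
    (hb : ‖b‖ = ‖a‖) (hc : ‖c‖ = ‖a‖) (hd : ‖d‖ = ‖a‖)
    (hrel : b + d = (2 * (1 - u)) • a + (2 * u) • c)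
    (hsym : dist a b = dist a d) (hac : dist a c = 2) :
    dist a c = dist (kitePt u 0) (kitePt u 1) ∧ dist a b = dist (kitePt u 0) (kitePt u 2) ∧
    dist a d = dist (kitePt u 0) (kitePt u 3) ∧ dist c b = dist (kitePt u 1) (kitePt u 2) ∧
    dist c d = dist (kitePt u 1) (kitePt u 3) ∧ dist b d = dist (kitePt u 2) (kitePt u 3) := by
  have dsq : ∀ x y : E k, dist x y ^ 2 = ‖x‖ ^ 2 + ‖y‖ ^ 2 - 2 * inner ℝ x y := by
    intro x y
    rw [dist_eq_norm, norm_sub_sq_real]
    ring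
  have e1 : inner ℝ a b = inner ℝ a d := by
    have := congrArg (fun t => t ^ 2) hsym
    simp only [dsq, hb, hd] at this
    linarith
  have ea : inner ℝ a b + inner ℝ a d = 2 * (1 - u) * ‖a‖ ^ 2 + 2 * u * inner ℝ a c := by
    have := congrArg (fun t => inner ℝ a t) hrel
    simpa only [inner_add_right, inner_smul_right, real_inner_self_eq_norm_sq] using this
  have eb : ‖a‖ ^ 2 + inner ℝ b d = 2 * (1 - u) * inner ℝ a b + 2 * u * inner ℝ c b := by
    have := congrArg (fun t => inner ℝ b t) hrel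
    simp only [inner_add_right, inner_smul_right, real_inner_self_eq_norm_sq] at this
    rw [hb, real_inner_comm a b, real_inner_comm c b] at this
    exact this
  have ec : inner ℝ c b + inner ℝ c d = 2 * (1 - u) * inner ℝ a c + 2 * u * ‖a‖ ^ 2 := by
    have := congrArg (fun t => inner ℝ c t) hrel
    simp only [inner_add_right, inner_smul_right, real_inner_self_eq_norm_sq] at this
    rw [hc, real_inner_comm a c] at this
    exact this
  have ed : inner ℝ b d + ‖a‖ ^ 2 = 2 * (1 - u) * inner ℝ a d + 2 * u * inner ℝ c d := by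
    have := congrArg (fun t => inner ℝ d t) hrel
    simp only [inner_add_right, inner_smul_right, real_inner_self_eq_norm_sq] at this
    rw [hd, real_inner_comm b d, real_inner_comm a d, real_inner_comm c d] at this
    exact this
  have e6 : ‖a‖ ^ 2 + ‖a‖ ^ 2 - 2 * inner ℝ a c = 4 := by
    have := dsq a c
    rw [hac, hc] at this
    linarith
  obtain ⟨r1, r2, r3, r4, r5⟩ := kite_algebra u _ _ _ _ _ _ _ h0 e1 ea eb ec ed e6
  obtain ⟨k01, k02, k03, k12, k13, k23⟩ := kite_dists u h0 h1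
  refine ⟨?_, ?_, ?_, ?_, ?_, ?_⟩
  · refine dist_eq_of_sq_eq ?_ k01
    rw [hac]; norm_num
  · refine dist_eq_of_sq_eq ?_ k02
    rw [dsq, hb]; exact r1
  · refine dist_eq_of_sq_eq ?_ k03
    rw [dsq, hd]; exact r2
  · refine dist_eq_of_sq_eq ?_ k12
    rw [dsq, hb, hc]; exact r3
  · refine dist_eq_of_sq_eq ?_ k13
    rw [dsq, hd, hc]; exact r4
  · refine dist_eq_of_sq_eq ?_ k23
    rw [dsq, hb, hd]; exact r5

end Vale.Agent.P058
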