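import Vale.Agent.Lib.P058.KitePerm

/-!
# P058: every right kite with rational parameter sits in a permutohedron
-/

namespace Vale.Agent.P058

open scoped BigOperators

/-- cyclic rotation of `Fin k` by `j`. -/
def rot (k j : ℕ) (hj : j < k) : Equiv.Perm (Fin k) where
  toFun t := if h : t.val + j < k then ⟨t.val + j, h⟩ else ⟨t.val + j - k, by have := t.isLt; omega⟩
  invFun t := if h : j ≤ t.val then ⟨t.val - j, by have := t.isLt; omega⟩
    else ⟨t.val + k - j, by have := t.isLt; omega⟩
  left_inv t := by
    have := t.isLt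
    apply Fin.ext
    by_cases h : t.val + j < k
    · simp [h]
    · have h2 : ¬ (j ≤ t.val + j - k) := by omega
      simp [h, h2]
      omega
  right_inv t := by
    have := t.isLt
    apply Fin.ext
    by_cases h : j ≤ t.val
    · have h2 : t.val - j + j < k := by omega
      simp [h, h2]
    · have h2 : ¬ (t.val + k - j + j < k) := by omega
      simp [h, h2]
      omega

theorem rot_val (k j : ℕ) (hj : j < k) (t : Fin k) :
    ((rot k j hj t : Fin k) : ℕ) = if t.val + j < k then t.val + j else t.val + j - k := by
  simp only [rot, Equiv.coe_fn_mk]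
  split_ifs <;> rfl

theorem rot_symm_val (k j : ℕ) (hj : j < k) (t : Fin k) :
    (((rot k j hj).symm t : Fin k) : ℕ) = if j ≤ t.val then t.val - j else t.val + k - j := by
  simp only [rot, Equiv.coe_fn_symm_mk]
  split_ifs <;> rfl

/-- the map of `Fin k` exchanging the first `j` and the last `j` elements by translation
(here `k = j + Q` and `j ≤ Q`). -/
def swpFun (k j Q : ℕ) (hk : k = j + Q) (t : Fin k) : Fin k :=
  if h : t.val < j then ⟨t.val + Q, by omega⟩
  else if h' : Q ≤ t.val then ⟨t.val - Q, by have := t.isLt; omega⟩ else t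

theorem swpFun_val (k j Q : ℕ) (hk : k = j + Q) (t : Fin k) :
    ((swpFun k j Q hk t : Fin k) : ℕ)
      = if t.val < j then t.val + Q else if Q ≤ t.val then t.val - Q else t.val := by
  unfold swpFun
  by_cases h : t.val < j
  · simp [h]
  · by_cases h' : Q ≤ t.val
    · simp [h, h']
    · simp [h, h']

theorem swpFun_invol (k j Q : ℕ) (hk : k = j + Q) (hjQ : j ≤ Q) :
    Function.Involutive (swpFun k j Q hk) := by
  intro t
  have := t.isLt
  apply Fin.ext
  rw [swpFun_val, swpFun_val]
  split_ifs <;> omega

/-- the involution of `Fin k` exchanging the first `j` and the last `j` elements. -/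
def swp (k j Q : ℕ) (hk : k = j + Q) (hjQ : j ≤ Q) : Equiv.Perm (Fin k) :=
  (swpFun_invol k j Q hk hjQ).toPerm _

theorem swp_val (k j Q : ℕ) (hk : k = j + Q) (hjQ : j ≤ Q) (t : Fin k) :
    ((swp k j Q hk hjQ t : Fin k) : ℕ)
      = if t.val < j then t.val + Q else if Q ≤ t.val then t.val - Q else t.val :=
  swpFun_val k j Q hk t

theorem swp_symm (k j Q : ℕ) (hk : k = j + Q) (hjQ : j ≤ Q) :
    (swp k j Q hk hjQ).symm = swp k j Q hk hjQ :=
  Function.Involutive.toPerm_symm _

/-- the vector `(0, 1, ..., k-1)`. -/
noncomputable def stair (k : ℕ) : E k := WithLp.toLp 2 fun t : Fin k => (t.val : ℝ)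

theorem stair_apply (k : ℕ) (t : Fin k) : stair k t = (t.val : ℝ) := rfl

/-- Right kites with rational parameter `P/Q` in `(1/2, 1)`. -/
theorem kite_subtransitive_half_one (P Q : ℕ) (hPQ : P < Q) (hQ : Q < 2 * P) :
    IsSubtransitive (kite ((P : ℝ) / Q)) := by
  have hQpos : (0 : ℝ) < Q := by exact_mod_cast (by omega : 0 < Q)
  have hPpos : (0 : ℝ) < P := by exact_mod_cast (by omega : 0 < P)
  have hk : 2 * P = (2 * P - Q) + Q := by omega
  have hjQ : 2 * P - Q ≤ Q := by omega
  have hj : 2 * P - Q < 2 * P := by omega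
  refine kite_subtransitive_of_perm (k := 2 * P) _ (by positivity)
    ((div_lt_one hQpos).mpr (by exact_mod_cast hPQ)) (stair (2 * P))
    (rot (2 * P) (2 * P - Q) hj) (swp (2 * P) (2 * P - Q) Q hk hjQ) ?_ ?_
  · ext t
    have ht := t.isLt
    simp only [PiLp.add_apply, PiLp.smul_apply, smul_eq_mul, act_apply, stair_apply, swp_symm,
      swp_val, rot_symm_val]
    have e : ((rot (2 * P) (2 * P - Q) hj)⁻¹).symm = rot (2 * P) (2 * P - Q) hj := rfl
    rw [e, rot_val]
    have hcast : ((2 * P - Q : ℕ) : ℝ) = 2 * P - Q := by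
      rw [Nat.cast_sub (by omega)]; push_cast; ring
    by_cases c1 : t.val < 2 * P - Q
    · have c2 : ¬ (2 * P - Q ≤ t.val) := by omega
      have c3 : t.val + (2 * P - Q) < 2 * P := by omega
      simp only [c1, c2, c3, if_true, if_false]
      have x1 : ((t.val + 2 * P - (2 * P - Q) : ℕ) : ℝ) = (t.val : ℝ) + Q := by
        have : t.val + 2 * P - (2 * P - Q) = t.val + Q := by omega
        rw [this]; push_cast; ring
      rw [x1]
      push_cast
      rw [hcast]
      field_simp
      ring
    · by_cases c4 : Q ≤ t.val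
      · have c2 : 2 * P - Q ≤ t.val := by omega
        have c3 : ¬ (t.val + (2 * P - Q) < 2 * P) := by omega
        simp only [c1, c2, c3, c4, if_true, if_false]
        obtain ⟨s, hs⟩ : ∃ s, t.val = Q + s := ⟨t.val - Q, by omega⟩
        have x1 : t.val - (2 * P - Q) = 2 * Q + s - 2 * P := by omega
        have x2 : t.val + (2 * P - Q) - 2 * P = s := by omega
        have x3 : t.val - Q = s := by omega
        rw [x1, x2, x3, hs, Nat.cast_sub (by omega)]
        push_cast
        field_simp
        ring
      · have c2 : 2 * P - Q ≤ t.val := by omega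
        have c3 : t.val + (2 * P - Q) < 2 * P := by omega
        simp only [c1, c2, c3, c4, if_true, if_false]
        rw [Nat.cast_sub c2]
        push_cast
        rw [hcast]
        field_simp
        ring
  · intro h
    have h0 := congrArg (fun x : E (2 * P) => x ⟨0, by omega⟩) h
    simp only [act_apply, stair_apply, swp_symm, swp_val] at h0
    have c1 : 0 < 2 * P - Q := by omega
    simp only [c1, if_true] at h0
    have : (0 : ℝ) < ((0 + Q : ℕ) : ℝ) := by push_cast; linarith
    rw [h0] at this
    simp at this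

end Vale.Agent.P058
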