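import Vale.Agent.Lib.P058.Obstruction
import Vale.Agent.Lib.P058.KiteRat

/-!
# P058: kites that are not subtransitive, and the rational kites
-/

namespace Vale.Agent.P058

open scoped BigOperators
open IntermediateField

theorem kitePt_injective (u : ℝ) (h0 : 0 < u) (h1 : u < 1) : Function.Injective (kitePt u) := by
  obtain ⟨k01, k02, k03, k12, k13, k23⟩ := kite_dists u h0 h1
  have hpos : 0 < u * (1 - u) := mul_pos h0 (by linarith)
  have key : ∀ i j, kitePt u i = kitePt u j → dist (kitePt u i) (kitePt u j) ^ 2 = 0 := by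
    intro i j h
    rw [h, dist_self]; norm_num
  have key' : ∀ i j, kitePt u i = kitePt u j → dist (kitePt u j) (kitePt u i) ^ 2 = 0 := by
    intro i j h
    rw [h, dist_self]; norm_num
  intro i j h
  have e1 := key i j h
  have e2 := key' i j h
  match i, j with
  | 0, 0 => rfl
  | 1, 1 => rfl
  | 2, 2 => rfl
  | 3, 3 => rfl
  | 0, 1 => rw [k01] at e1; norm_num at e1
  | 0, 2 => rw [k02] at e1; linarith
  | 0, 3 => rw [k03] at e1; linarith
  | 1, 2 => rw [k12] at e1; linarith
  | 1, 3 => rw [k13] at e1; linarith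
  | 2, 3 => rw [k23] at e1; linarith
  | 1, 0 => rw [k01] at e2; norm_num at e2
  | 2, 0 => rw [k02] at e2; linarith
  | 3, 0 => rw [k03] at e2; linarith
  | 2, 1 => rw [k12] at e2; linarith
  | 3, 1 => rw [k13] at e2; linarith
  | 3, 2 => rw [k23] at e2; linarith

/-- If some embedding into `ℝ` of a subfield containing `u` moves `u` outside `[0,1]`, the right
kite with parameter `u` is not subtransitive. -/
theorem kite_not_subtransitive (u : ℝ) (h0 : 0 < u) (h1 : u < 1) (F : Subfield ℝ) (hu : u ∈ F)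
    (σ : F →+* ℝ) (hσ : σ ⟨u, hu⟩ < 0 ∨ 1 < σ ⟨u, hu⟩) : ¬ IsSubtransitive (kite u) := by
  rw [← range_kitePt]
  set uF : F := ⟨u, hu⟩ with huF
  set μ : Fin 4 → F := ![uF + uF - 1 - 1, -uF - uF, 1, 1] with hμ
  have hsum : ∑ i, μ i = 0 := by
    simp only [hμ, Fin.sum_univ_four]
    simp
    ring
  have hdep : ∑ i, (μ i : ℝ) • kitePt u i = 0 := by
    simp only [hμ, Fin.sum_univ_four]
    ext t
    fin_cases t
    · simp [kitePt, huF]
      ring
    · simp [kitePt, huF]
  have s0 : σ (μ 0) = σ uF + σ uF - 1 - 1 := by simp [hμ]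
  have s1 : σ (μ 1) = -σ uF - σ uF := by simp [hμ]
  have s2 : σ (μ 2) = 1 := by simp [hμ]
  have s3 : σ (μ 3) = 1 := by simp [hμ]
  rcases hσ with h | h
  · refine not_subtransitive_of_conjugate (kitePt u) (kitePt_injective u h0 h1) F σ μ hsum hdep 0
      (by rw [s0]; linarith) ?_
    intro i hi
    match i with
    | 0 => exact absurd rfl hi
    | 1 => rw [s1]; linarith
    | 2 => rw [s2]; norm_num
    | 3 => rw [s3]; norm_num
  · refine not_subtransitive_of_conjugate (kitePt u) (kitePt_injective u h0 h1) F σ μ hsum hdep 1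
      (by rw [s1]; linarith) ?_
    intro i hi
    match i with
    | 0 => rw [s0]; linarith
    | 1 => exact absurd rfl hi
    | 2 => rw [s2]; norm_num
    | 3 => rw [s3]; norm_num

theorem exists_hom_of_transcendental (K : Type*) [Field K] [Algebra K ℝ] (u u' : ℝ)
    (ht : Transcendental K u) (ht' : Transcendental K u') :
    ∃ σ : K⟮u⟯ →+* ℝ, σ (AdjoinSimple.gen K u) = u' := by
  let e1 := RatFunc.algEquivOfTranscendental u ht
  let e2 := RatFunc.algEquivOfTranscendental u' ht'
  refine ⟨((K⟮u'⟯).val.comp (e2.toAlgHom.comp e1.symm.toAlgHom)).toRingHom, ?_⟩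
  change ((e2 (e1.symm (AdjoinSimple.gen K u)) : K⟮u'⟯) : ℝ) = u'
  rw [RatFunc.algEquivOfTranscendental_symm_gen, RatFunc.algEquivOfTranscendental_X]

/-- Transcendental parameters. -/
theorem kite_not_subtransitive_of_transcendental (u : ℝ) (h0 : 0 < u) (h1 : u < 1)
    (ht : Transcendental ℚ u) : ¬ IsSubtransitive (kite u) := by
  have ht' : Transcendental ℚ (-u) := by
    intro h
    exact ht (by simpa using h.neg)
  obtain ⟨σ₀, hσ₀⟩ := exists_hom_of_transcendental ℚ u (-u) ht ht'
  let σ : (ℚ⟮u⟯).toSubfield →+* ℝ := σ₀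
  have hu : u ∈ (ℚ⟮u⟯).toSubfield := mem_adjoin_simple_self ℚ u
  refine kite_not_subtransitive u h0 h1 (ℚ⟮u⟯).toSubfield hu σ (Or.inl ?_)
  have : σ ⟨u, hu⟩ = -u := hσ₀
  rw [this]
  linarith

/-- Algebraic parameters having a real conjugate outside `[0,1]`. -/
theorem kite_not_subtransitive_of_conjugate (u u' : ℝ) (h0 : 0 < u) (h1 : u < 1)
    (ha : IsAlgebraic ℚ u) (hroot : Polynomial.aeval u' (minpoly ℚ u) = 0)
    (hu' : u' < 0 ∨ 1 < u') : ¬ IsSubtransitive (kite u) := by
  have hint : IsIntegral ℚ u := ha.isIntegral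
  have hmem : u' ∈ (minpoly ℚ u).aroots ℝ := by
    rw [Polynomial.mem_aroots]
    exact ⟨minpoly.ne_zero hint, hroot⟩
  let τ : ℚ⟮u⟯ →ₐ[ℚ] ℝ := (algHomAdjoinIntegralEquiv ℚ hint).symm ⟨u', hmem⟩
  let σ : (ℚ⟮u⟯).toSubfield →+* ℝ := τ.toRingHom
  have hu : u ∈ (ℚ⟮u⟯).toSubfield := mem_adjoin_simple_self ℚ u
  refine kite_not_subtransitive u h0 h1 (ℚ⟮u⟯).toSubfield hu σ ?_
  have : σ ⟨u, hu⟩ = u' := by
    change τ (AdjoinSimple.gen ℚ u) = u'
    exact algHomAdjoinIntegralEquiv_symm_apply_gen ℚ hint _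
  rw [this]
  exact hu'

/-- The square (`u = 1/2`). -/
theorem kite_subtransitive_half : IsSubtransitive (kite (1 / 2)) := by
  refine kite_subtransitive_of_perm (k := 4) (1 / 2) (by norm_num) (by norm_num)
    (WithLp.toLp 2 ![0, 0, 1, 1]) (rot 4 1 (by norm_num)) (rot 4 2 (by norm_num)) ?_ ?_
  · have e : ((rot 4 1 (by norm_num))⁻¹).symm = rot 4 1 (by norm_num) := rfl
    ext t
    simp only [PiLp.add_apply, PiLp.smul_apply, smul_eq_mul, act_apply, e]
    fin_cases t <;> simp [rot] <;> norm_num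
  · intro h
    have h0 := congrArg (fun x : E 4 => x 0) h
    simp [act_apply, rot] at h0

/-- Every right kite with rational parameter is subtransitive. -/
theorem kite_subtransitive_rat (u : ℚ) (h0 : 0 < u) (h1 : u < 1) :
    IsSubtransitive (kite (u : ℝ)) := by
  obtain ⟨P, hP⟩ : ∃ P : ℕ, u.num = P := ⟨u.num.toNat, by
    rw [Int.toNat_of_nonneg (Rat.num_nonneg.mpr h0.le)]⟩
  set Q := u.den with hQ
  have hQpos : 0 < Q := u.den_pos
  have hu : (u : ℝ) = (P : ℝ) / Q := by
    have : u = (u.num : ℚ) / (u.den : ℚ) := (Rat.num_div_den u).symm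
    rw [this, hP]
    push_cast
    rfl
  have hQR : (0 : ℝ) < Q := by exact_mod_cast hQpos
  have h0' : (0 : ℝ) < u := by exact_mod_cast h0
  have h1' : (u : ℝ) < 1 := by exact_mod_cast h1
  have hPpos : 0 < P := by
    rw [hu] at h0'
    have : (0 : ℝ) < P := by
      by_contra hcon
      push Not at hcon
      have := div_nonpos_of_nonpos_of_nonneg hcon hQR.le
      linarith
    exact_mod_cast this
  have hPQ : P < Q := by
    rw [hu, div_lt_one hQR] at h1'
    exact_mod_cast h1'
  rcases lt_trichotomy Q (2 * P) with h | h | h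
  · rw [hu]
    exact kite_subtransitive_half_one P Q hPQ h
  · have : (u : ℝ) = 1 / 2 := by
      rw [hu, h]
      push_cast
      have : (P : ℝ) ≠ 0 := by exact_mod_cast hPpos.ne'
      field_simp
    rw [this]
    exact kite_subtransitive_half
  · apply kite_subtransitive_symm
    have : 1 - (u : ℝ) = ((Q - P : ℕ) : ℝ) / Q := by
      rw [hu, Nat.cast_sub hPQ.le]
      field_simp
    rw [this]
    exact kite_subtransitive_half_one (Q - P) Q (by omega) (by omega)

end Vale.Agent.P058
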