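import Vale.Agent.Lib.P058.KiteGeom

/-!
# P058: kites inside orbits of the symmetric group
-/

namespace Vale.Agent.P058

open scoped BigOperators

/-- If a vector `v` and two coordinate permutations `ρ`, `τ` satisfy the affine relation of the
kite with parameter `u`, then that kite is subtransitive (it is similar to four points of the
orbit of `v` under all coordinate permutations). -/
theorem kite_subtransitive_of_perm {k : ℕ} (u : ℝ) (h0 : 0 < u) (h1 : u < 1) (v : E k)
    (ρ τ : Equiv.Perm (Fin k))
    (hrel : act ρ v + act ρ⁻¹ v = (2 * (1 - u)) • v + (2 * u) • act τ v)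
    (hne : act τ v ≠ v) : IsSubtransitive (kite u) := by
  have hL : 0 < dist v (act τ v) := dist_pos.mpr (Ne.symm hne)
  set L := dist v (act τ v) with hLdef
  set w : E k := (2 / L) • v with hw
  have hact : ∀ π : Equiv.Perm (Fin k), act π w = (2 / L) • act π v := by
    intro π
    rw [hw, map_smul]
  have hnorm : ∀ π : Equiv.Perm (Fin k), ‖act π w‖ = ‖w‖ := fun π => (act π).norm_map w
  have hrel' : act ρ w + act ρ⁻¹ w = (2 * (1 - u)) • w + (2 * u) • act τ w := by
    rw [hact, hact, hact, ← smul_add, hrel, hw, smul_add, smul_smul, smul_smul, smul_smul,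
      smul_smul, mul_comm (2 / L), mul_comm (2 / L)]
  have hsym : dist w (act ρ w) = dist w (act ρ⁻¹ w) := by
    have h := (act ρ).dist_map w (act ρ⁻¹ w)
    rw [act_mul, mul_inv_cancel, act_one] at h
    rw [← h, dist_comm]
  have hac : dist w (act τ w) = 2 := by
    rw [hact, hw, dist_smul₀, ← hLdef, Real.norm_eq_abs, abs_of_pos (by positivity)]
    field_simp
  obtain ⟨d01, d02, d03, d12, d13, d23⟩ := four_vectors_kite u h0 h1 w (act τ w) (act ρ w)
    (act ρ⁻¹ w) (hnorm _) (hnorm _) (hnorm _) hrel' hsym hac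
  rw [← range_kitePt]
  refine subtransitive_of_family (kitePt u) (permOrbit w) (permOrbit_transitive w)
    ![w, act τ w, act ρ w, act ρ⁻¹ w] ?_ ?_
  · intro i
    match i with
    | 0 => exact ⟨1, act_one w⟩
    | 1 => exact ⟨τ, rfl⟩
    | 2 => exact ⟨ρ, rfl⟩
    | 3 => exact ⟨ρ⁻¹, rfl⟩
  · exact dist_family_eq _ _ d01 d02 d03 d12 d13 d23

/-- The reflection `(x, y) ↦ (-x, y)` of the plane. -/
noncomputable def refl (x : E 2) : E 2 := !₂[-(x 0), x 1]

theorem dist_refl (x y : E 2) : dist (refl x) (refl y) = dist x y := by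
  refine dist_eq_of_sq_eq (r := (x 0 - y 0) ^ 2 + (x 1 - y 1) ^ 2) ?_ (dist_sq_E2 x y)
  rw [dist_sq_E2]
  simp only [refl]
  simp
  ring

theorem refl_mem_kite (u : ℝ) (x : E 2) (hx : x ∈ kite u) : refl x ∈ kite (1 - u) := by
  have hs : (1 - u) * (1 - (1 - u)) = u * (1 - u) := by ring
  simp only [kite, Set.mem_insert_iff, Set.mem_singleton_iff, hs] at hx ⊢
  rcases hx with rfl | rfl | rfl | rfl
  · right; left
    ext i; fin_cases i <;> simp [refl]
  · left
    ext i; fin_cases i <;> simp [refl]
  · right; right; left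
    ext i; fin_cases i <;> simp [refl]
    ring
  · right; right; right
    ext i; fin_cases i <;> simp [refl]
    ring

theorem kite_subtransitive_symm (u : ℝ) (h : IsSubtransitive (kite (1 - u))) :
    IsSubtransitive (kite u) := by
  obtain ⟨n, X, f, hX, hmaps, hdist⟩ := h
  refine ⟨n, X, fun x => f (refl x), hX, fun a ha => hmaps _ (refl_mem_kite u a ha), ?_⟩
  intro a ha b hb
  rw [hdist _ (refl_mem_kite u a ha) _ (refl_mem_kite u b hb), dist_refl]

end Vale.Agent.P058
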