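import Vale.Agent.Lib.P058.Defs

/-!
# P058: a Galois-conjugation / convexity obstruction to subtransitivity
-/

namespace Vale.Agent.P058

open scoped BigOperators

/-- For coefficients summing to zero, the squared norm of a linear combination is determined by
the pairwise distances. -/
theorem norm_sq_sum_smul_eq {n : ℕ} {ι : Type*} [Fintype ι] (c : ι → ℝ) (hc : ∑ i, c i = 0)
    (y : ι → E n) :
    ‖∑ i, c i • y i‖ ^ 2 = -(1 / 2) * ∑ i, ∑ j, c i * c j * dist (y i) (y j) ^ 2 := by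
  have h1 : ‖∑ i, c i • y i‖ ^ 2 = ∑ i, ∑ j, c i * c j * inner ℝ (y i) (y j) := by
    rw [← real_inner_self_eq_norm_sq, sum_inner]
    refine Finset.sum_congr rfl fun i _ => ?_
    rw [inner_sum]
    refine Finset.sum_congr rfl fun j _ => ?_
    rw [inner_smul_left, inner_smul_right]
    simp [mul_assoc]
  have h2 : ∀ i j, dist (y i) (y j) ^ 2
      = ‖y i‖ ^ 2 + ‖y j‖ ^ 2 - 2 * inner ℝ (y i) (y j) := by
    intro i j
    rw [dist_eq_norm, norm_sub_sq_real]
    ring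
  have h3 : ∑ i, ∑ j, c i * c j * ‖y i‖ ^ 2 = 0 := by
    have : ∀ i, ∑ j, c i * c j * ‖y i‖ ^ 2 = (c i * ‖y i‖ ^ 2) * ∑ j, c j := by
      intro i
      rw [Finset.mul_sum]
      refine Finset.sum_congr rfl fun j _ => by ring
    simp [this, hc]
  have h4 : ∑ i, ∑ j, c i * c j * ‖y j‖ ^ 2 = 0 := by
    rw [Finset.sum_comm]
    have : ∀ j, ∑ i, c i * c j * ‖y j‖ ^ 2 = (c j * ‖y j‖ ^ 2) * ∑ i, c i := by
      intro j
      rw [Finset.mul_sum]
      refine Finset.sum_congr rfl fun i _ => by ring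
    simp [this, hc]
  have h5 : ∑ i, ∑ j, c i * c j * dist (y i) (y j) ^ 2
      = ∑ i, ∑ j, c i * c j * ‖y i‖ ^ 2 + ∑ i, ∑ j, c i * c j * ‖y j‖ ^ 2
        - 2 * ∑ i, ∑ j, c i * c j * inner ℝ (y i) (y j) := by
    rw [Finset.mul_sum, ← Finset.sum_add_distrib, ← Finset.sum_sub_distrib]
    refine Finset.sum_congr rfl fun i _ => ?_
    rw [Finset.mul_sum, ← Finset.sum_add_distrib, ← Finset.sum_sub_distrib]
    refine Finset.sum_congr rfl fun j _ => ?_
    rw [h2]
    ring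
  rw [h5, h3, h4, h1]
  ring

/-- An affine dependency is preserved by any map preserving the pairwise distances. -/
theorem affine_dep_of_dist_eq {d n : ℕ} {ι : Type*} [Fintype ι] (c : ι → ℝ) (hc : ∑ i, c i = 0)
    (p : ι → E d) (y : ι → E n) (hd : ∀ i j, dist (y i) (y j) = dist (p i) (p j))
    (hp : ∑ i, c i • p i = 0) : ∑ i, c i • y i = 0 := by
  have h1 := norm_sq_sum_smul_eq c hc y
  have h2 := norm_sq_sum_smul_eq c hc p
  simp only [hd] at h1
  rw [← h2, hp] at h1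
  simpa using h1

/-- **Conjugation obstruction.**  Let `p i` be distinct points with an affine dependency
`∑ μ i • p i = 0`, `∑ μ i = 0`, whose coefficients lie in a subfield `F` of `ℝ`.  If some field
embedding `σ : F → ℝ` makes exactly one coefficient negative and all others nonnegative, then the
set of the `p i` is not subtransitive. -/
theorem not_subtransitive_of_conjugate {d : ℕ} {ι : Type*} [Fintype ι] (p : ι → E d)
    (hp : Function.Injective p) (F : Subfield ℝ) (σ : F →+* ℝ) (μ : ι → F)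
    (hsum : ∑ i, μ i = 0) (hdep : ∑ i, (μ i : ℝ) • p i = 0) (i₀ : ι)
    (hneg : σ (μ i₀) < 0) (hpos : ∀ i, i ≠ i₀ → 0 ≤ σ (μ i)) :
    ¬ IsSubtransitive (Set.range p) := by
  classical
  rintro ⟨n, X, f, ⟨hfin, htrans⟩, hmaps, hdist⟩
  -- separating functionals
  have hφ : ∀ r : ℝ, ∃ φ : Module.Dual F ℝ, r ≠ 0 → φ r ≠ 0 := by
    intro r
    by_cases hr : r = 0
    · exact ⟨0, fun h => absurd hr h⟩
    · have := (Module.forall_dual_apply_eq_zero_iff F r).not.mpr hr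
      push Not at this
      obtain ⟨φ, hφ⟩ := this
      exact ⟨φ, fun _ => hφ⟩
  choose φ hφ using hφ
  set ψ : ℝ → ℝ → ℝ := fun r x => σ (φ r x) with hψ
  have ψadd : ∀ r (s : Finset ι) (g : ι → ℝ), ψ r (∑ i ∈ s, g i) = ∑ i ∈ s, ψ r (g i) := by
    intro r s g
    simp [hψ, map_sum]
  have ψsmul : ∀ r (c : F) (x : ℝ), ψ r ((c : ℝ) * x) = σ c * ψ r x := by
    intro r c x
    have : (c : ℝ) * x = c • x := rfl
    simp [hψ, this, map_smul, smul_eq_mul]
  have ψsub : ∀ r x y, ψ r (x - y) = ψ r x - ψ r y := by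
    intro r x y
    simp [hψ, map_sub]
  -- the finite set of coordinate differences
  set Xf : Finset (E n) := hfin.toFinset with hXf
  set R : Finset ℝ := (Xf ×ˢ Xf ×ˢ (Finset.univ : Finset (Fin n))).image
    (fun t => t.1 t.2.2 - t.2.1 t.2.2) with hR
  set Φ : E n → ℝ := fun x => ∑ r ∈ R, ∑ j, (ψ r (x j)) ^ 2 with hΦ
  have hne : Xf.Nonempty := ⟨f (p i₀), by simpa [hXf] using hmaps _ ⟨i₀, rfl⟩⟩
  obtain ⟨ystar, hystar, hmax⟩ := Finset.exists_max_image Xf Φ hne
  have hystar' : ystar ∈ X := by simpa [hXf] using hystar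
  obtain ⟨g, hgX, hg⟩ := htrans (f (p i₀)) (hmaps _ ⟨i₀, rfl⟩) ystar hystar'
  set y : ι → E n := fun i => g (f (p i)) with hy
  have hyX : ∀ i, y i ∈ X := by
    intro i
    rw [← hgX]
    exact ⟨f (p i), hmaps _ ⟨i, rfl⟩, rfl⟩
  have hyd : ∀ i j, dist (y i) (y j) = dist (p i) (p j) := by
    intro i j
    simp only [hy, g.dist_eq]
    exact hdist _ ⟨i, rfl⟩ _ ⟨j, rfl⟩
  have hsumR : ∑ i, (μ i : ℝ) = 0 := by
    have := congrArg (fun x : F => (x : ℝ)) hsum
    simpa using this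
  have hydep : ∑ i, (μ i : ℝ) • y i = 0 := affine_dep_of_dist_eq _ hsumR p y hyd hdep
  -- conjugated coordinate relation
  have hrel : ∀ r j, ∑ i, σ (μ i) * ψ r (y i j) = 0 := by
    intro r j
    have h1 : ∑ i, (μ i : ℝ) * y i j = 0 := by
      have := congrArg (fun v : E n => v j) hydep
      simpa using this
    have h2 := congrArg (ψ r) h1
    rw [ψadd] at h2
    simp only [ψsmul] at h2
    rw [h2]
    simp [hψ]
  have hσsum : ∑ i, σ (μ i) = 0 := by
    rw [← map_sum, hsum, map_zero]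
  -- key identity
  have hkey : ∀ r j, ∑ i, σ (μ i) * (ψ r (y i j) - ψ r (y i₀ j)) ^ 2
      = ∑ i, σ (μ i) * (ψ r (y i j)) ^ 2 := by
    intro r j
    have : ∀ i, σ (μ i) * (ψ r (y i j) - ψ r (y i₀ j)) ^ 2
        = σ (μ i) * (ψ r (y i j)) ^ 2 - 2 * ψ r (y i₀ j) * (σ (μ i) * ψ r (y i j))
          + (ψ r (y i₀ j)) ^ 2 * σ (μ i) := by
      intro i; ring
    simp only [this]
    rw [Finset.sum_add_distrib, Finset.sum_sub_distrib, ← Finset.mul_sum, ← Finset.mul_sum,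
      hrel, hσsum]
    ring
  have htotal : ∑ i, σ (μ i) * (∑ r ∈ R, ∑ j, (ψ r (y i j) - ψ r (y i₀ j)) ^ 2)
      = ∑ i, σ (μ i) * Φ (y i) := by
    simp only [hΦ, Finset.mul_sum]
    rw [Finset.sum_comm]
    conv_rhs => rw [Finset.sum_comm]
    refine Finset.sum_congr rfl fun r _ => ?_
    rw [Finset.sum_comm]
    conv_rhs => rw [Finset.sum_comm]
    refine Finset.sum_congr rfl fun j _ => ?_
    exact hkey r j
  have hΦle : ∀ i, Φ (y i) ≤ Φ (y i₀) := by
    intro i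
    have : y i₀ = ystar := hg
    rw [this]
    exact hmax _ (by simpa [hXf] using hyX i)
  have hrhs : ∑ i, σ (μ i) * Φ (y i) ≤ 0 := by
    have h1 : ∑ i, σ (μ i) * Φ (y i) ≤ ∑ i, σ (μ i) * Φ (y i₀) := by
      refine Finset.sum_le_sum fun i _ => ?_
      by_cases hi : i = i₀
      · rw [hi]
      · exact mul_le_mul_of_nonneg_left (hΦle i) (hpos i hi)
    rw [← Finset.sum_mul, hσsum, zero_mul] at h1
    exact h1
  have hterm : ∀ i, 0 ≤ σ (μ i) * (∑ r ∈ R, ∑ j, (ψ r (y i j) - ψ r (y i₀ j)) ^ 2) := by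
    intro i
    by_cases hi : i = i₀
    · rw [hi]; simp
    · exact mul_nonneg (hpos i hi)
        (Finset.sum_nonneg fun r _ => Finset.sum_nonneg fun j _ => sq_nonneg _)
  have hzero : ∀ i, σ (μ i) * (∑ r ∈ R, ∑ j, (ψ r (y i j) - ψ r (y i₀ j)) ^ 2) = 0 := by
    have hs : ∑ i, σ (μ i) * (∑ r ∈ R, ∑ j, (ψ r (y i j) - ψ r (y i₀ j)) ^ 2) = 0 :=
      le_antisymm (htotal ▸ hrhs) (Finset.sum_nonneg fun i _ => hterm i)
    intro i
    exact (Finset.sum_eq_zero_iff_of_nonneg fun i _ => hterm i).mp hs i (Finset.mem_univ i)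
  -- some other coefficient is positive
  obtain ⟨i₁, hi₁, hi₁pos⟩ : ∃ i₁, i₁ ≠ i₀ ∧ 0 < σ (μ i₁) := by
    by_contra hcon
    push Not at hcon
    have h0 : ∀ i, i ≠ i₀ → σ (μ i) = 0 := fun i hi => le_antisymm (hcon i hi) (hpos i hi)
    have : ∑ i, σ (μ i) = σ (μ i₀) :=
      Finset.sum_eq_single i₀ (fun i _ hi => h0 i hi) (fun h => absurd (Finset.mem_univ _) h)
    rw [hσsum] at this
    exact absurd this.symm (ne_of_lt hneg)
  have hz := hzero i₁
  have hz' : ∑ r ∈ R, ∑ j, (ψ r (y i₁ j) - ψ r (y i₀ j)) ^ 2 = 0 := by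
    rcases mul_eq_zero.mp hz with h | h
    · exact absurd h (ne_of_gt hi₁pos)
    · exact h
  have hz'' : ∀ r ∈ R, ∀ j, ψ r (y i₁ j) - ψ r (y i₀ j) = 0 := by
    intro r hr j
    have h1 := (Finset.sum_eq_zero_iff_of_nonneg
      (fun r _ => Finset.sum_nonneg fun j _ => sq_nonneg _)).mp hz' r hr
    have h2 := (Finset.sum_eq_zero_iff_of_nonneg (fun j _ => sq_nonneg _)).mp h1 j
      (Finset.mem_univ j)
    exact pow_eq_zero_iff (two_ne_zero) |>.mp h2
  have hcoord : ∀ j, y i₁ j = y i₀ j := by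
    intro j
    by_contra hne'
    have hr0 : y i₁ j - y i₀ j ≠ 0 := sub_ne_zero.mpr hne'
    have hrR : y i₁ j - y i₀ j ∈ R := by
      rw [hR, Finset.mem_image]
      refine ⟨(y i₁, y i₀, j), ?_, rfl⟩
      simp only [Finset.mem_product, Finset.mem_univ, and_true]
      exact ⟨by simpa [hXf] using hyX i₁, by simpa [hXf] using hyX i₀⟩
    have h1 := hz'' _ hrR j
    rw [← ψsub] at h1
    have h2 : φ (y i₁ j - y i₀ j) (y i₁ j - y i₀ j) = 0 := by
      have : σ (φ (y i₁ j - y i₀ j) (y i₁ j - y i₀ j)) = 0 := h1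
      exact (map_eq_zero σ).mp this
    exact hφ _ hr0 h2
  have hyeq : y i₁ = y i₀ := by
    ext j
    exact hcoord j
  have : dist (p i₁) (p i₀) = 0 := by
    rw [← hyd, hyeq, dist_self]
  exact hi₁ (hp (dist_eq_zero.mp this))

end Vale.Agent.P058
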