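import Vale.Agent.Lib.P058.Defs

/-!
# P058: orbits of the symmetric group permuting coordinates are transitive sets
-/

namespace Vale.Agent.P058

open scoped BigOperators

/-- The linear isometry of `ℝ^k` permuting the coordinates by `π`. -/
noncomputable def act {k : ℕ} (π : Equiv.Perm (Fin k)) : E k ≃ₗᵢ[ℝ] E k :=
  LinearIsometryEquiv.piLpCongrLeft 2 ℝ ℝ π

theorem act_apply {k : ℕ} (π : Equiv.Perm (Fin k)) (x : E k) (i : Fin k) :
    act π x i = x (π.symm i) := by
  simp [act, LinearIsometryEquiv.piLpCongrLeft_apply]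

theorem act_mul {k : ℕ} (π₁ π₂ : Equiv.Perm (Fin k)) (x : E k) :
    act π₁ (act π₂ x) = act (π₁ * π₂) x := by
  ext i
  simp [act_apply, Equiv.Perm.mul_def]

theorem act_one {k : ℕ} (x : E k) : act (1 : Equiv.Perm (Fin k)) x = x := by
  ext i
  rw [act_apply]
  rfl

/-- The orbit of `w` under all coordinate permutations. -/
def permOrbit {k : ℕ} (w : E k) : Set (E k) :=
  Set.range fun π : Equiv.Perm (Fin k) => act π w

theorem permOrbit_transitive {k : ℕ} (w : E k) : IsTransitive (permOrbit w) := by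
  refine ⟨Set.finite_range _, ?_⟩
  rintro x ⟨π, rfl⟩ y ⟨π', rfl⟩
  refine ⟨(act (π' * π⁻¹)).toIsometryEquiv, ?_, ?_⟩
  · ext z
    constructor
    · rintro ⟨_, ⟨θ, rfl⟩, rfl⟩
      exact ⟨π' * π⁻¹ * θ, (act_mul _ _ _).symm⟩
    · rintro ⟨θ, rfl⟩
      refine ⟨act ((π' * π⁻¹)⁻¹ * θ) w, ⟨_, rfl⟩, ?_⟩
      change act (π' * π⁻¹) (act ((π' * π⁻¹)⁻¹ * θ) w) = act θ w
      rw [act_mul, mul_inv_cancel_left]
  · change act (π' * π⁻¹) (act π w) = act π' w
    rw [act_mul]
    simp

/-- A family of points is subtransitive as soon as it has a distance-preserving copy inside a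
transitive set. -/
theorem subtransitive_of_family {d n : ℕ} {ι : Type*} (p : ι → E d) (X : Set (E n))
    (hX : IsTransitive X) (q : ι → E n) (hq : ∀ i, q i ∈ X)
    (hd : ∀ i j, dist (q i) (q j) = dist (p i) (p j)) : IsSubtransitive (Set.range p) := by
  classical
  refine ⟨n, X, fun x => if h : ∃ i, p i = x then q h.choose else 0, hX, ?_, ?_⟩
  · rintro _ ⟨i, rfl⟩
    have h : ∃ i', p i' = p i := ⟨i, rfl⟩
    simp only [h, dite_true]
    exact hq _
  · rintro _ ⟨i, rfl⟩ _ ⟨j, rfl⟩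
    have hi : ∃ i', p i' = p i := ⟨i, rfl⟩
    have hj : ∃ j', p j' = p j := ⟨j, rfl⟩
    simp only [hi, hj, dite_true]
    rw [hd, hi.choose_spec, hj.choose_spec]

end Vale.Agent.P058
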